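import Mathlib
import Vale.Agent.P204.Plain

open scoped ContDiff

namespace Vale.Agent.Results.P204.TorusBundle

/-- The universal cover `ℝ³ × ℝ` of the `T³`-bundle `X_A` over the circle. -/
abbrev Cover := (Fin 3 → ℝ) × ℝ

/-- The linear map `(u, s) ↦ (A u, s)`, the differential of `deck A`. -/
def deckLin (A : Matrix.SpecialLinearGroup (Fin 3) ℤ) (v : Cover) : Cover :=
  (((A : Matrix (Fin 3) (Fin 3) ℤ).map (Int.cast : ℤ → ℝ)).mulVec v.1, v.2)

/-- The deck transformation `(x, t) ↦ (A x, t + 1)`. The closed four-manifold `X_A` is the quotient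
of `ℝ³ × ℝ` by the group generated by it and by the translations of `ℝ³` by integer vectors. -/
def deck (A : Matrix.SpecialLinearGroup (Fin 3) ℤ) (p : Cover) : Cover :=
  ((deckLin A p).1, p.2 + 1)

/-- Translation of the `ℝ³`-factor by an integer vector. -/
def shift (n : Fin 3 → ℤ) (p : Cover) : Cover := (p.1 + fun i => (n i : ℝ), p.2)

/-- Derivative of a function at `p` in the direction `u`. -/
noncomputable def D (f : Cover → ℝ) (p u : Cover) : ℝ := fderiv ℝ f p u

/-- A smooth almost complex structure on `X_A`, given by its lift to the cover. -/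
structure AlmostComplex (A : Matrix.SpecialLinearGroup (Fin 3) ℤ) where
  J : Cover → Cover → Cover
  linear : ∀ p, IsLinearMap ℝ (J p)
  smooth : ContDiff ℝ ∞ (fun q : Cover × Cover => J q.1 q.2)
  sq : ∀ p v, J p (J p v) = -v
  transl : ∀ n p v, J (shift n p) v = J p v
  monodromy : ∀ p v, J (deck A p) (deckLin A v) = deckLin A (J p v)

/-- A smooth closed real two-form on `X_A`, given by its lift to the cover. -/
structure ClosedTwoForm (A : Matrix.SpecialLinearGroup (Fin 3) ℤ) where
  w : Cover → Cover → Cover → ℝ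
  linear : ∀ p u, IsLinearMap ℝ (w p u)
  alt : ∀ p u v, w p u v = -w p v u
  smooth : ContDiff ℝ ∞ (fun q : Cover × Cover × Cover => w q.1 q.2.1 q.2.2)
  closed : ∀ p u v x, D (fun q => w q v x) p u + D (fun q => w q x u) p v +
    D (fun q => w q u v) p x = 0
  transl : ∀ n p u v, w (shift n p) u v = w p u v
  monodromy : ∀ p u v, w (deck A p) (deckLin A u) (deckLin A v) = w p u v

/-- `w` tames `J`. (A closed taming form is nondegenerate, hence symplectic.) -/
def Tames {A : Matrix.SpecialLinearGroup (Fin 3) ℤ} (w : ClosedTwoForm A) (J : AlmostComplex A) :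
    Prop :=
  ∀ p v, v ≠ 0 → 0 < w.w p v (J.J p v)

/-- `w` is compatible with `J`. -/
def Compatible {A : Matrix.SpecialLinearGroup (Fin 3) ℤ} (w : ClosedTwoForm A)
    (J : AlmostComplex A) : Prop :=
  Tames w J ∧ ∀ p u v, w.w p (J.J p u) (J.J p v) = w.w p u v

/-- For an almost complex structure on a `T³`-bundle over the circle (with arbitrary monodromy
`A ∈ SL₃(ℤ)`) that is invariant under the translations of the fibres, tamed implies compatible. -/
theorem result (A : Matrix.SpecialLinearGroup (Fin 3) ℤ) (J : AlmostComplex A)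
    (hJ : ∀ (x y : Fin 3 → ℝ) (t : ℝ), J.J (x, t) = J.J (y, t))
    (h : ∃ w : ClosedTwoForm A, Tames w J) : ∃ w : ClosedTwoForm A, Compatible w J := by
  obtain ⟨w, hw⟩ := h
  obtain ⟨w', h1, h2, h3, h4, h5, h6, h7, h8⟩ := Vale.Agent.P204aux.plain A J.linear J.smooth J.sq
    (fun p v => J.monodromy p v) hJ w.linear w.alt w.smooth w.closed
    (fun x t n => by funext u v; exact w.transl n (x, t) u v)
    (fun p u v => w.monodromy p u v) hw
  exact ⟨⟨w', h1, h2, h3, h4, fun n p u v => congrFun (congrFun (h5 _ p.1 p.2) u) v,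
    h6⟩, h7, h8⟩

end Vale.Agent.Results.P204.TorusBundle
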